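import Crest.Agent.X212.Sw21.Dir
import Crest.Agent.X212.Gnk31.Cut
import Crest.Agent.X212.Rad94.KerA
import Crest.Agent.X212.Rad94.KerB
import Crest.Agent.X212.Rad94.KerC
import Crest.Agent.X212.Unb45.Unb
import Crest.Agent.X212.Unb45.Idx
import Crest.Agent.X212.Fre43.Abs
import Crest.Agent.X212.Fre43.Main
import Crest.Agent.X212.Wgt71.Main
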